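import Vale.Agent.P007.MathlibUsed
import Vale.Agent.P007.Bdl.B5
import Vale.Agent.P007.H11.QNu

/-! A character which is nontrivial on the Galois group does not have a pole. -/

set_option autoImplicit false

open NumberField

namespace Vale.Agent.P007.H596

open Vale.Agent.P007 Vale.Agent.P007.Z Vale.Agent.P007.Z.CStep Vale.Agent.P007.H11

/-- a model function with slope less than one: either `δ = 0` or `0` is an entry -/
theorem zero_mem_of_slope {δ : ℕ} {d : List ℝ} (hδ : δ ≤ 1) (hd : ∀ x ∈ d, 0 ≤ x ∧ x ≤ 1)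
    {c C : ℝ} (hc : c < 1)
    (h : ∀ η : ℝ, 0 < η → η ≤ 1 → model δ d η ≤ c * (-Real.log η) + C) :
    δ = 0 ∨ (0 : ℝ) ∈ d := by
  rcases Nat.le_one_iff_eq_zero_or_eq_one.1 hδ with rfl | rfl
  · exact Or.inl rfl
  · refine Or.inr ?_
    by_contra h0
    have hpos : ∀ x ∈ d, 0 < x := fun x hx =>
      lt_of_le_of_ne (hd x hx).1 (fun h => h0 (h ▸ hx))
    obtain ⟨K, hK⟩ := sum_log_max_ge hpos
    have h1 := model_nonpos hδ hd hc h (Real.exp_pos (-(|K| + 1))) (by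
      rw [Real.exp_le_one_iff]
      have := abs_nonneg K
      linarith only [this])
    have h2 := hK (Real.exp (-(|K| + 1))) (Real.exp_pos _)
    unfold model at h1
    rw [Real.log_exp] at h1
    push_cast at h1
    have h3 := le_abs_self K
    linarith only [h1, h2, h3]

/-- the slope lemma: comparison of the coefficients outside a finite set of primes -/
theorem slope_of_terms {F A B : Type} [Field F] [NumberField F] [Field A] [NumberField A]
    [Field B] [NumberField B] {q q' : ℕ} (χ : DirichletCharacter ℂ q) (α β : ℝ) (hα : 0 ≤ α)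
    (hβ : 0 ≤ β) (hαβ : α - β < 1) {D : ℤ} (hD : D ≠ 0)
    (h : ∀ p : Nat.Primes, ¬ ((p : ℕ) : ℤ) ∣ D →
      cf F χ p ≤ α * cf A (1 : DirichletCharacter ℂ q') p -
        β * cf B (1 : DirichletCharacter ℂ q') p)
    {ℓ C K : ℝ} (hℓ : 1 ≤ ℓ)
    (hA : ∀ η : ℝ, 0 < η → η ≤ 1 → Del A (1 : DirichletCharacter ℂ q') ℓ η ≤ -Real.log η + K)
    (hB : ∀ η : ℝ, 0 < η → η ≤ 1 → -Real.log η - K ≤ Del B (1 : DirichletCharacter ℂ q') ℓ η)
    {δ : ℕ} {d : List ℝ} (hδ : δ ≤ 1) (hd : ∀ x ∈ d, 0 ≤ x ∧ x ≤ 1)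
    (hF : ∀ η : ℝ, 0 < η → η ≤ 1 → |Del F χ ℓ η - model δ d η| ≤ C) :
    δ = 0 ∨ (0 : ℝ) ∈ d := by
  classical
  obtain ⟨CD, hCD⟩ := TSm_dvd hℓ hD
  have hbF := bddC_cf F χ
  have hbA := (bddC_cf A (1 : DirichletCharacter ℂ q')).const_mul α
  have hbB := (bddC_cf B (1 : DirichletCharacter ℂ q')).const_mul β
  obtain ⟨M, hM⟩ := hbF.sub (hbA.sub hbB)
  have hM0 : 0 ≤ M := (abs_nonneg _).trans (hM ⟨2, Nat.prime_two⟩)
  have hbD : BddC fun p : Nat.Primes => M * (if ((p : ℕ) : ℤ) ∣ D then (1 : ℝ) else 0) :=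
    (bddC_ind _).const_mul M
  refine zero_mem_of_slope hδ hd hαβ (C := α * K + β * K + M * CD + C) fun η hη hη1 => ?_
  have h1 : TSm ℓ η (cf F χ) ≤ TSm ℓ η (fun p =>
      (α * cf A (1 : DirichletCharacter ℂ q') p - β * cf B (1 : DirichletCharacter ℂ q') p) +
      M * (if ((p : ℕ) : ℤ) ∣ D then (1 : ℝ) else 0)) := by
    refine TSm_mono hbF ((hbA.sub hbB).add hbD) hℓ hη hη1 fun p => ?_
    by_cases hp : ((p : ℕ) : ℤ) ∣ D
    · rw [if_pos hp]
      have h2 := (abs_le.1 (hM p)).2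
      linarith only [h2]
    · rw [if_neg hp]
      have h2 := h p hp
      linarith only [h2]
  rw [TSm_add (hbA.sub hbB) hbD hℓ hη hη1, TSm_sub hbA hbB hℓ hη hη1, TSm_const_mul,
    TSm_const_mul, TSm_const_mul] at h1
  have h2 : TSm ℓ η (cf F χ) = Del F χ ℓ η := rfl
  have h3 : TSm ℓ η (cf A (1 : DirichletCharacter ℂ q')) =
    Del A (1 : DirichletCharacter ℂ q') ℓ η := rfl
  have h4 : TSm ℓ η (cf B (1 : DirichletCharacter ℂ q')) =
    Del B (1 : DirichletCharacter ℂ q') ℓ η := rfl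
  rw [h2, h3, h4] at h1
  have h5 := (abs_le.1 (hF η hη hη1)).1
  have h6 := mul_le_mul_of_nonneg_left (hA η hη hη1) hα
  have h7 := mul_le_mul_of_nonneg_left (hB η hη hη1) hβ
  have h8 := mul_le_mul_of_nonneg_left (hCD η hη hη1) hM0
  have h9 : (α - β) * (-Real.log η) + (α * K + β * K + M * CD + C) =
    (α * (-Real.log η + K) - β * (-Real.log η - K) + M * CD) + C := by ring
  rw [h9]
  linarith only [h1, h5, h6, h7, h8]

theorem two_card_le {G : Type} [Group G] [Finite G] {A K : Subgroup G} (h : A ≤ K)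
    (hne : A ≠ K) : 2 * Nat.card A ≤ Nat.card K := by
  obtain ⟨m, hm⟩ := Subgroup.card_dvd_of_le h
  have h0 : 0 < Nat.card K := Nat.card_pos
  have h1 : 0 < Nat.card A := Nat.card_pos
  have h2 : m ≠ 0 := by
    rintro rfl
    omega
  have h3 : m ≠ 1 := by
    rintro rfl
    rw [mul_one] at hm
    exact hne (Subgroup.eq_of_le_of_card_ge h hm.le)
  have h4 : 2 ≤ m := by omega
  rw [hm, mul_comm]
  exact Nat.mul_le_mul_left _ h4

theorem cf_one_one (E : Type) [Field E] [NumberField E] (p : Nat.Primes) :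
    cf E (1 : DirichletCharacter ℂ 1) p = aE E p := by
  unfold cf
  rw [MulChar.one_apply (isUnit_of_subsingleton _), Complex.one_re, one_mul]

section

variable {W : Type} [Field W] [NumberField W] [IsGalois ℚ W] {q : ℕ} {χ : DirichletCharacter ℂ q}
  (κ : (W ≃ₐ[ℚ] W) →* ℂˣ)

/-- the kernel of `κ ^ j` in `K` -/
def Kj (K : Subgroup (W ≃ₐ[ℚ] W)) (j : ℕ) : Subgroup (W ≃ₐ[ℚ] W) := K ⊓ (κ ^ j).ker

omit [IsGalois ℚ W] in
theorem mem_Kj {K : Subgroup (W ≃ₐ[ℚ] W)} {j : ℕ} {σ : W ≃ₐ[ℚ] W} :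
    σ ∈ Kj κ K j ↔ σ ∈ K ∧ κ σ ^ j = 1 := Iff.rfl

/-- the comparison of coefficients, `j = 2` -/
theorem coeff_two (hκ : ∀ σ : W ≃ₐ[ℚ] W, κ σ ^ 4 = 1) {p : ℕ} (hp : p.Prime)
    (hD : ¬ (p : ℤ) ∣ discr W)
    (hfrob : ∀ (Q : Ideal (𝓞 W)) (σ : W ≃ₐ[ℚ] W), Q.IsMaximal →
      (p : 𝓞 W) ∈ Q → (∀ x : 𝓞 W, RingOfIntegers.mapRingEquiv σ.toRingEquiv x - x ^ p ∈ Q) →
      (κ σ : ℂ) = χ (p : ZMod q)) (K : Subgroup (W ≃ₐ[ℚ] W)) :
    (χ (p : ZMod q) ^ 2).re * ((aE (IntermediateField.fixedField K) p : ℝ) * Nat.card K) =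
      2 * ((aE (IntermediateField.fixedField (Kj κ K 2)) p : ℝ) * Nat.card (Kj κ K 2)) -
      (aE (IntermediateField.fixedField K) p : ℝ) * Nat.card K := by
  classical
  obtain ⟨ν, -, h1, h2⟩ := exists_nu W p hp hD
  rw [h2 K, h2 (Kj κ K 2), Finset.mul_sum, Finset.mul_sum, ← Finset.sum_sub_distrib]
  refine Finset.sum_congr rfl fun σ _ => ?_
  simp only [Set.indicator_apply, SetLike.mem_coe, mem_Kj]
  by_cases hν : ν σ = 0
  · simp [hν]
  obtain ⟨Q, hQ, hpQ, hσ⟩ := h1 σ hν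
  have h3 := hfrob Q σ hQ hpQ hσ
  have h4 : (κ σ : ℂ) ^ 4 = 1 := by
    rw [← Units.val_pow_eq_pow_val, hκ σ, Units.val_one]
  by_cases hK : σ ∈ K
  · rw [if_pos hK]
    by_cases h5 : κ σ ^ 2 = 1
    · rw [if_pos ⟨hK, h5⟩, ← h3, ← Units.val_pow_eq_pow_val, h5, Units.val_one, Complex.one_re]
      ring
    · rw [if_neg (fun h => h5 h.2), ← h3]
      have h6 : (κ σ : ℂ) ^ 2 ≠ 1 := by
        intro h
        apply h5
        ext
        rw [Units.val_pow_eq_pow_val, h, Units.val_one]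
      have h7 : ((κ σ : ℂ) ^ 2 - 1) * ((κ σ : ℂ) ^ 2 + 1) = 0 := by
        linear_combination h4
      have h8 : (κ σ : ℂ) ^ 2 = -1 :=
        eq_neg_of_add_eq_zero_left ((mul_eq_zero.1 h7).resolve_left (sub_ne_zero.2 h6))
      rw [h8, Complex.neg_re, Complex.one_re]
      ring
  · rw [if_neg hK, if_neg (fun h => hK h.1)]
    ring

/-- the comparison of coefficients, `j = 1` -/
theorem coeff_one (hκ : ∀ σ : W ≃ₐ[ℚ] W, κ σ ^ 4 = 1) {p : ℕ} (hp : p.Prime)
    (hD : ¬ (p : ℤ) ∣ discr W)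
    (hfrob : ∀ (Q : Ideal (𝓞 W)) (σ : W ≃ₐ[ℚ] W), Q.IsMaximal →
      (p : 𝓞 W) ∈ Q → (∀ x : 𝓞 W, RingOfIntegers.mapRingEquiv σ.toRingEquiv x - x ^ p ∈ Q) →
      (κ σ : ℂ) = χ (p : ZMod q)) (K : Subgroup (W ≃ₐ[ℚ] W)) :
    (χ (p : ZMod q) ^ 1).re * ((aE (IntermediateField.fixedField K) p : ℝ) * Nat.card K) =
      2 * ((aE (IntermediateField.fixedField (Kj κ K 1)) p : ℝ) * Nat.card (Kj κ K 1)) -
      (aE (IntermediateField.fixedField (Kj κ K 2)) p : ℝ) * Nat.card (Kj κ K 2) := by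
  classical
  obtain ⟨ν, -, h1, h2⟩ := exists_nu W p hp hD
  rw [h2 K, h2 (Kj κ K 1), h2 (Kj κ K 2), Finset.mul_sum, Finset.mul_sum,
    ← Finset.sum_sub_distrib]
  refine Finset.sum_congr rfl fun σ _ => ?_
  simp only [Set.indicator_apply, SetLike.mem_coe, mem_Kj]
  by_cases hν : ν σ = 0
  · simp [hν]
  obtain ⟨Q, hQ, hpQ, hσ⟩ := h1 σ hν
  have h3 := hfrob Q σ hQ hpQ hσ
  have h4 : (κ σ : ℂ) ^ 4 = 1 := by
    rw [← Units.val_pow_eq_pow_val, hκ σ, Units.val_one]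
  by_cases hK : σ ∈ K
  · rw [if_pos hK]
    by_cases h5 : κ σ ^ 2 = 1
    · rw [if_pos (show σ ∈ K ∧ κ σ ^ 2 = 1 from ⟨hK, h5⟩), ← h3]
      by_cases h6 : κ σ ^ 1 = 1
      · rw [if_pos ⟨hK, h6⟩, ← Units.val_pow_eq_pow_val, h6, Units.val_one, Complex.one_re]
        ring
      · rw [if_neg (fun h => h6 h.2)]
        have h7 : (κ σ : ℂ) ≠ 1 := by
          intro h
          apply h6
          ext
          rw [Units.val_pow_eq_pow_val, h, Units.val_one, one_pow]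
        have h8 : (κ σ : ℂ) ^ 2 = 1 := by
          rw [← Units.val_pow_eq_pow_val, h5, Units.val_one]
        have h9 : ((κ σ : ℂ) - 1) * ((κ σ : ℂ) + 1) = 0 := by
          linear_combination h8
        have h10 : (κ σ : ℂ) = -1 :=
          eq_neg_of_add_eq_zero_left ((mul_eq_zero.1 h9).resolve_left (sub_ne_zero.2 h7))
        rw [h10, pow_one, Complex.neg_re, Complex.one_re]
        ring
    · have h5' : κ σ ^ 1 ≠ 1 := by
        intro h
        rw [pow_one] at h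
        rw [h, one_pow] at h5
        exact h5 rfl
      rw [if_neg (fun h => h5' h.2), if_neg (fun h : σ ∈ K ∧ κ σ ^ 2 = 1 => h5 h.2), ← h3]
      have h6 : (κ σ : ℂ) ^ 2 ≠ 1 := by
        intro h
        apply h5
        ext
        rw [Units.val_pow_eq_pow_val, h, Units.val_one]
      have h7 : ((κ σ : ℂ) ^ 2 - 1) * ((κ σ : ℂ) ^ 2 + 1) = 0 := by
        linear_combination h4
      have h8 : (κ σ : ℂ) ^ 2 = -1 :=
        eq_neg_of_add_eq_zero_left ((mul_eq_zero.1 h7).resolve_left (sub_ne_zero.2 h6))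
      have h9 : (κ σ : ℂ).re = 0 := by
        have h10 := congrArg Complex.re h8
        have h11 := congrArg Complex.im h8
        rw [pow_two, Complex.mul_re, Complex.neg_re, Complex.one_re] at h10
        rw [pow_two, Complex.mul_im, Complex.neg_im, Complex.one_im] at h11
        by_contra h12
        have h13 : (κ σ : ℂ).im = 0 := by
          have h14 : (κ σ : ℂ).re * (κ σ : ℂ).im = 0 := by linarith only [h11]
          exact (mul_eq_zero.1 h14).resolve_left h12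
        rw [h13] at h10
        nlinarith only [h10, mul_self_nonneg (κ σ : ℂ).re]
      rw [pow_one, h9]
      ring
  · rw [if_neg hK, if_neg (fun h => hK h.1), if_neg (fun h : σ ∈ K ∧ κ σ ^ 2 = 1 => hK h.1)]
    ring

end

/-- A power (`1` or `2`) of the character which is nontrivial on `K` has no pole over the fixed
field of `K`. -/
theorem del_nontriv {W : Type} [Field W] [NumberField W] [IsTotallyReal W] [IsGalois ℚ W]
    {q : ℕ} (hq : q.Prime) {χ : DirichletCharacter ℂ q} (κ : (W ≃ₐ[ℚ] W) →* ℂˣ)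
    (hκ : ∀ σ : W ≃ₐ[ℚ] W, κ σ ^ 4 = 1)
    (hfrob : ∀ (p : ℕ), p.Prime → p ≠ q → ∀ (Q : Ideal (𝓞 W)) (σ : W ≃ₐ[ℚ] W), Q.IsMaximal →
      (p : 𝓞 W) ∈ Q → (∀ x : 𝓞 W, RingOfIntegers.mapRingEquiv σ.toRingEquiv x - x ^ p ∈ Q) →
      (κ σ : ℂ) = χ (p : ZMod q))
    (K : Subgroup (W ≃ₐ[ℚ] W)) (j : ℕ) (hj : j = 1 ∨ j = 2) (hnt : ∃ σ ∈ K, κ σ ^ j ≠ 1)
    {ℓ C : ℝ} (hℓ : 1 ≤ ℓ)
    (hZ : ∀ E : IntermediateField ℚ W, ∃ d : List ℝ, (∀ x ∈ d, 0 < x ∧ x ≤ 1) ∧
      ∀ η : ℝ, 0 < η → η ≤ 1 → |Del E (1 : DirichletCharacter ℂ 1) ℓ η - model 1 d η| ≤ C)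
    (δ : ℕ) (d : List ℝ) (hδ : δ ≤ 1) (hd : ∀ x ∈ d, 0 ≤ x ∧ x ≤ 1)
    (hD : ∀ η : ℝ, 0 < η → η ≤ 1 →
      |Del (IntermediateField.fixedField K) (χ ^ j) ℓ η - model δ d η| ≤ C) :
    δ = 0 ∨ (0 : ℝ) ∈ d := by
  have hup : ∀ E : IntermediateField ℚ W, ∀ η : ℝ, 0 < η → η ≤ 1 →
      Del E (1 : DirichletCharacter ℂ 1) ℓ η ≤ -Real.log η + C := by
    intro E η hη hη1
    obtain ⟨d', hd', h⟩ := hZ E
    have h1 := (abs_le.1 (h η hη hη1)).2
    have h2 := model_le (δ := 1) le_rfl (fun x hx => ⟨(hd' x hx).1.le, (hd' x hx).2⟩) hη hη1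
    linarith only [h1, h2]
  have hlo : ∀ E : IntermediateField ℚ W, ∃ K' : ℝ, ∀ η : ℝ, 0 < η → η ≤ 1 →
      -Real.log η - K' ≤ Del E (1 : DirichletCharacter ℂ 1) ℓ η := by
    intro E
    obtain ⟨d', hd', h⟩ := hZ E
    obtain ⟨K', hK'⟩ := sum_log_max_ge fun x hx => (hd' x hx).1
    refine ⟨K' + C, fun η hη hη1 => ?_⟩
    have h1 := (abs_le.1 (h η hη hη1)).1
    have h2 := hK' η hη
    unfold model at h1
    push_cast at h1
    linarith only [h1, h2]
  have hDne : discr W * (q : ℤ) ≠ 0 :=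
    mul_ne_zero (discr_ne_zero W) (by exact_mod_cast hq.ne_zero)
  have hdiv : ∀ p : Nat.Primes, ¬ ((p : ℕ) : ℤ) ∣ discr W * (q : ℤ) →
      ¬ ((p : ℕ) : ℤ) ∣ discr W ∧ (p : ℕ) ≠ q := by
    intro p hp
    refine ⟨fun h => hp (h.mul_right _), fun h => hp ?_⟩
    rw [h]
    exact dvd_mul_left _ _
  have hle : Kj κ K j ≤ K := inf_le_left
  have hne : Kj κ K j ≠ K := by
    intro h
    obtain ⟨σ, hσ, h1⟩ := hnt
    rw [← h] at hσ
    exact h1 hσ.2
  have hcard := two_card_le hle hne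
  have hK0 : (0 : ℝ) < Nat.card K := by exact_mod_cast (Nat.card_pos : 0 < Nat.card K)
  have hcard' : 2 * (Nat.card (Kj κ K j) : ℝ) ≤ Nat.card K := by exact_mod_cast hcard
  have hα : (0 : ℝ) ≤ 2 * (Nat.card (Kj κ K j) : ℝ) / Nat.card K := by positivity
  have hα1 : 2 * (Nat.card (Kj κ K j) : ℝ) / Nat.card K ≤ 1 := by
    rw [div_le_one hK0]
    exact hcard'
  rcases hj with rfl | rfl
  · obtain ⟨K', hK'⟩ := hlo (IntermediateField.fixedField (Kj κ K 2))
    have hK2 : (0 : ℝ) < Nat.card (Kj κ K 2) := by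
      exact_mod_cast (Nat.card_pos : 0 < Nat.card (Kj κ K 2))
    have hβ : 0 < (Nat.card (Kj κ K 2) : ℝ) / Nat.card K := by positivity
    refine slope_of_terms (F := IntermediateField.fixedField K)
      (A := IntermediateField.fixedField (Kj κ K 1))
      (B := IntermediateField.fixedField (Kj κ K 2)) (q' := 1) (χ ^ 1)
      (2 * (Nat.card (Kj κ K 1) : ℝ) / Nat.card K) ((Nat.card (Kj κ K 2) : ℝ) / Nat.card K)
      hα hβ.le (by linarith only [hα1, hβ]) hDne ?_ (K := |K'| + |C|) hℓ ?_ ?_ hδ hd hD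
    · intro p hp
      obtain ⟨h1, h2⟩ := hdiv p hp
      rw [cf_one_one, cf_one_one]
      have h3 := coeff_one κ hκ p.2 h1 (fun Q σ => hfrob p p.2 h2 Q σ) K
      have h4 : cf (IntermediateField.fixedField K) (χ ^ 1) p =
          (χ ((p : ℕ) : ZMod q) ^ 1).re * (aE (IntermediateField.fixedField K) p : ℝ) := by
        unfold cf
        rw [MulChar.pow_apply' χ one_ne_zero]
      rw [h4]
      refine le_of_eq ?_
      field_simp
      rw [pow_one] at h3
      linarith only [h3]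
    · intro η hη hη1
      have h1 := hup (IntermediateField.fixedField (Kj κ K 1)) η hη hη1
      have h2 := le_abs_self C
      have h3 := abs_nonneg K'
      linarith only [h1, h2, h3]
    · intro η hη hη1
      have h1 := hK' η hη hη1
      have h2 := le_abs_self K'
      have h3 := abs_nonneg C
      linarith only [h1, h2, h3]
  · obtain ⟨K', hK'⟩ := hlo (IntermediateField.fixedField K)
    refine slope_of_terms (F := IntermediateField.fixedField K)
      (A := IntermediateField.fixedField (Kj κ K 2))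
      (B := IntermediateField.fixedField K) (q' := 1) (χ ^ 2)
      (2 * (Nat.card (Kj κ K 2) : ℝ) / Nat.card K) 1
      hα zero_le_one (by linarith only [hα1]) hDne ?_ (K := |K'| + |C|) hℓ ?_ ?_ hδ hd hD
    · intro p hp
      obtain ⟨h1, h2⟩ := hdiv p hp
      rw [cf_one_one, cf_one_one]
      have h3 := coeff_two κ hκ p.2 h1 (fun Q σ => hfrob p p.2 h2 Q σ) K
      have h4 : cf (IntermediateField.fixedField K) (χ ^ 2) p =
          (χ ((p : ℕ) : ZMod q) ^ 2).re * (aE (IntermediateField.fixedField K) p : ℝ) := by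
        unfold cf
        rw [MulChar.pow_apply' χ two_ne_zero]
      rw [h4]
      refine le_of_eq ?_
      field_simp
      linarith only [h3]
    · intro η hη hη1
      have h1 := hup (IntermediateField.fixedField (Kj κ K 2)) η hη hη1
      have h2 := le_abs_self C
      have h3 := abs_nonneg K'
      linarith only [h1, h2, h3]
    · intro η hη hη1
      have h1 := hK' η hη hη1
      have h2 := le_abs_self K'
      have h3 := abs_nonneg C
      linarith only [h1, h2, h3]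

end Vale.Agent.P007.H596
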